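import Vale.Agent.P300.Bdl.B1

open scoped Manifold ContDiff
open Vale.Agent.P300 TopologicalSpace

universe u v w

/-- Let `p : V → X` be a holomorphic covering of a compact complex manifold `X`.
Two special cases of Shafarevich's holomorphic convexity of `V`, with no condition on the
fundamental group: (1) the relative Siegel theorem (`V` simply connected); (2) `X` has ample
canonical bundle and `V` is biholomorphic to an open subset of a holomorphically convex
manifold `N` with a dominating local spray. -/
theorem Vale.Agent.Results.P300.ConvexCovers.result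
    -- the compact complex manifold `X` and its holomorphic covering `V`
    {E : Type u} [NormedAddCommGroup E] [NormedSpace ℂ E] [FiniteDimensional ℂ E]
    {X : Type v} [TopologicalSpace X] [ChartedSpace E X] [IsManifold 𝓘(ℂ, E) ω X]
    [T2Space X] [CompactSpace X]
    {V : Type v} [TopologicalSpace V] [ChartedSpace E V] [IsManifold 𝓘(ℂ, E) ω V] [T2Space V]
    {p : V → X} (hp : IsHolomorphicCovering E p)
    -- the data of (1): a complex manifold `Y`, a connected covering `W` of it,
    -- `F : V → W` and `z : V → Z`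
    {E₂ : Type u} [NormedAddCommGroup E₂] [NormedSpace ℂ E₂] [FiniteDimensional ℂ E₂]
    {Z : Type u} [NormedAddCommGroup Z] [NormedSpace ℂ Z] [FiniteDimensional ℂ Z]
    {Y : Type w} [TopologicalSpace Y] [ChartedSpace E₂ Y] [IsManifold 𝓘(ℂ, E₂) ω Y] [T2Space Y]
    {W : Type w} [TopologicalSpace W] [ChartedSpace E₂ W] [IsManifold 𝓘(ℂ, E₂) ω W]
    [T2Space W] [ConnectedSpace W]
    {q : W → Y} {f : X → Y} {F : V → W} {z : V → Z}
    -- the data of (2): a complex manifold `N`, a map `s : N × T → N`, an open subset `U` of `N`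
    {N : Type w} [TopologicalSpace N] [T2Space N] [ChartedSpace E N] [IsManifold 𝓘(ℂ, E) ω N]
    {T : Type u} [NormedAddCommGroup T] [NormedSpace ℂ T] [FiniteDimensional ℂ T]
    {O : Set (N × T)} {s : N × T → N} {U : Opens N} :
    -- (1)
    (SimplyConnectedSpace V → IsHolomorphicCovering E₂ q → IsGaloisCovering q →
      HolomorphicallyConvex E₂ W → (∀ v, q (F v) = f (p v)) →
      IsLocalDiffeomorph 𝓘(ℂ, E) (𝓘(ℂ, E₂).prod 𝓘(ℂ, Z)) ω (fun v => (F v, z v)) →
      (∀ (y : W) (ζ : Z), {v | F v = y ∧ z v = ζ}.Finite) →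
      (∀ L : Set W, IsCompact L → Bornology.IsBounded (z '' (F ⁻¹' L))) →
      HolomorphicallyConvex E V) ∧
    -- (2)
    (CanonicalBundleAmple E X → HolomorphicallyConvex E N → IsDominatingLocalSpray E O s →
      Nonempty (V ≃ₘ^ω⟮𝓘(ℂ, E), 𝓘(ℂ, E)⟯ U) →
      HolomorphicallyConvex E V) := by
  refine ⟨?_, ?_⟩
  · intro hV hq hqG hW hFf hP hfin hbdd
    exact relative_siegel hp hq hqG hFf hW hP hfin hbdd
  · rintro hX hN hs ⟨e⟩
    exact holomorphicallyConvex_of_ample hN hs hX hp.1 hp.2.2 U e
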